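import Vale.Agent.P092.H720.Re.Roots

/-!
P092, project RE (helper720), block [RE-R], part 3: `ExSr` from the basic facts on the Lie algebra
(structure `LieOK`, = what is used of [RE-L]).
-/

set_option linter.all false

open Matrix

namespace Vale.Agent.P092.H720.Re

open Vale.Agent.P092.H793.Re

/-- what is used of the Lie algebra -/
structure LieOK {n : ℕ} {G : Type} [Group G] [TopologicalSpace G] (ρ : G →* SLn n) : Prop where
  zero : Lie ρ 0
  add : ∀ X Y, Lie ρ X → Lie ρ Y → Lie ρ (X + Y)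
  smul : ∀ (c : ℝ) X, Lie ρ X → Lie ρ (c • X)
  br : ∀ X Y, Lie ρ X → Lie ρ Y → Lie ρ (X * Y - Y * X)
  tr : ∀ X, Lie ρ X → Lie ρ Xᵀ
  cen : ∀ X, Lie ρ X → Xᵀ = X → (∀ Y, Lie ρ Y → X * Y = Y * X) → X = 0
  pol : ∃ X, Lie ρ X ∧ Xᵀ = X ∧ X ≠ 0

variable {n : ℕ} {G : Type} [Group G] [TopologicalSpace G] {ρ : G →* SLn n}

/-- the Lie algebra as a subspace -/
def LieOK.L (hL : LieOK ρ) : Submodule ℝ (Mat n) where
  carrier := {X | Lie ρ X}
  add_mem' := fun hX hY => hL.add _ _ hX hY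
  zero_mem' := hL.zero
  smul_mem' := fun c _ hX => hL.smul c _ hX

theorem LieOK.mem (hL : LieOK ρ) {X : Mat n} : X ∈ hL.L ↔ Lie ρ X := Iff.rfl

/-- **Hadamard multipliers** in the letters of project RE. -/
theorem LieOK.had (hL : LieOK ρ) {h : Fin n → ℝ} (hh : Lie ρ (diagonal h)) (φ : ℝ → ℝ) {X : Mat n}
    (hX : Lie ρ X) : Lie ρ (Matrix.of fun a b => φ (h a - h b) * X a b) :=
  had_mem (L := hL.L) ⟨fun X hX Y hY => hL.br X Y hX hY, fun X hX => hL.tr X hX⟩ hh φ X hX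

/-- **[RE-R]** -/
theorem LieOK.sr (hL : LieOK ρ) {h : Fin n → ℝ} (hD : Dg ρ h) :
    ∃ (r : ℕ) (p q : Fin r → Fin n) (w : Fin r → Fin n → ℝ) (E : Fin r → Mat n),
      Sr ρ h p q w E := by
  have hg : LA hL.L := ⟨fun X hX Y hY => hL.br X Y hX hY, fun X hX => hL.tr X hX⟩
  let h' : dia hL.L := ⟨h, hD.lie⟩
  have hG : GD hL.L h' := ⟨fun X hX h1 h2 => hD.cent X hX h1 h2,
    fun a b c d h1 x => hD.gen a b c d h1 x.1 x.2⟩
  have hc : ∀ x : dia hL.L, (∀ X ∈ hL.L, diagonal x.1 * X = X * diagonal x.1) → x = 0 := by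
    intro x hx
    have h1 := hL.cen (diagonal x.1) x.2 (Matrix.diagonal_transpose _) hx
    refine Subtype.ext (funext fun a => ?_)
    have h2 := congrFun (congrFun h1 a) a
    rwa [Matrix.diagonal_apply_eq] at h2
  have h0 : h' ≠ 0 := by
    intro h0
    have h1 : h = 0 := congrArg Subtype.val h0
    obtain ⟨X, hX, hXt, hX0⟩ := hL.pol
    obtain ⟨x, rfl⟩ := hD.cent X hX hXt (by
      rw [h1]
      have : diagonal (0 : Fin n → ℝ) = (0 : Mat n) := Matrix.diagonal_zero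
      rw [this, mul_zero, zero_mul])
    have h2 : (⟨x, hX⟩ : dia hL.L) = 0 := by
      refine hc _ fun Y _ => ?_
      ext a b
      rw [Matrix.diagonal_mul, Matrix.mul_diagonal]
      have h3 : x a - x b = x a - x a := hD.gen a b a a (by rw [h1]; rfl) x hX
      change x a * Y a b = Y a b * x b
      have h4 : x a = x b := by linarith
      rw [h4, mul_comm]
    have h5 : x = 0 := congrArg Subtype.val h2
    rw [h5] at hX0
    exact hX0 Matrix.diagonal_zero
  obtain ⟨r, p, q, w, E, hS⟩ := exists_srA hg hG hc h0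
  exact ⟨r, p, q, w, E,
  { pos := hS.pos
    hpq := hS.hpq
    wl := hS.wl
    dual := hS.dual
    span := hS.span
    root := hS.root
    El := hS.El
    En := hS.En
    Ew := hS.Ew
    Eh := hS.Eh }⟩

theorem exSr_of (hL : ∀ {n : ℕ} {G : Type} [Group G] [TopologicalSpace G] (ρ : G →* SLn n),
    RS ρ → LieOK ρ) : ExSr := fun ρ h hρ hD => (hL ρ hρ).sr hD

end Vale.Agent.P092.H720.Re
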