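import Vale.Agent.P092.H793.Re.Blocks
import Mathlib.LinearAlgebra.Lagrange
import Mathlib.LinearAlgebra.QuadraticForm.Dual
import Mathlib.Analysis.Matrix.Order

/-!
P092, project RE (helper720), block [RE-R], part 1: Lie algebras of real matrices stable under
transposition: Hadamard multipliers, root vectors, the two trace identities.
-/

set_option linter.all false

open Matrix

namespace Vale.Agent.P092.H720.Re

open Vale.Agent.P092.H793.Re

variable {n : ℕ}

/-- a Lie algebra of matrices stable under transposition -/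
structure LA (L : Submodule ℝ (Mat n)) : Prop where
  br : ∀ X ∈ L, ∀ Y ∈ L, X * Y - Y * X ∈ L
  tr : ∀ X ∈ L, Xᵀ ∈ L

/-- Hadamard multiplier -/
def had (h : Fin n → ℝ) (φ : ℝ → ℝ) (X : Mat n) : Mat n := Matrix.of fun a b => φ (h a - h b) * X a b

theorem had_apply (h : Fin n → ℝ) (φ : ℝ → ℝ) (X : Mat n) (a b : Fin n) :
    had h φ X a b = φ (h a - h b) * X a b := rfl

section had

variable {L : Submodule ℝ (Mat n)} {h : Fin n → ℝ}

theorem had_pow (hbr : ∀ X ∈ L, diagonal h * X - X * diagonal h ∈ L) (k : ℕ) :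
    ∀ X ∈ L, had h (fun v => v ^ k) X ∈ L := by
  induction k with
  | zero =>
    intro X hX
    have : had h (fun v => v ^ 0) X = X := by
      ext a b
      simp [had]
    rw [this]
    exact hX
  | succ k ih =>
    intro X hX
    have h1 := hbr _ (ih X hX)
    have : had h (fun v => v ^ (k + 1)) X =
        diagonal h * had h (fun v => v ^ k) X - had h (fun v => v ^ k) X * diagonal h := by
      ext a b
      rw [Matrix.sub_apply, Matrix.diagonal_mul, Matrix.mul_diagonal, had_apply, had_apply]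
      ring
    rw [this]
    exact h1

theorem had_poly (hbr : ∀ X ∈ L, diagonal h * X - X * diagonal h ∈ L) (P : Polynomial ℝ) :
    ∀ X ∈ L, had h (fun v => P.eval v) X ∈ L := by
  intro X hX
  have : had h (fun v => P.eval v) X =
      ∑ k ∈ P.support, P.coeff k • had h (fun v => v ^ k) X := by
    ext a b
    rw [Matrix.sum_apply, had_apply, Polynomial.eval_eq_sum, Polynomial.sum, Finset.sum_mul]
    refine Finset.sum_congr rfl fun k _ => ?_
    rw [Matrix.smul_apply, had_apply, smul_eq_mul, mul_assoc]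
  rw [this]
  exact Submodule.sum_mem _ fun k _ => Submodule.smul_mem _ _ (had_pow hbr k X hX)

/-- **Hadamard multipliers**: only `[diag h, X] ∈ L` is used. -/
theorem had_mem' (hbr : ∀ X ∈ L, diagonal h * X - X * diagonal h ∈ L) (φ : ℝ → ℝ) :
    ∀ X ∈ L, had h φ X ∈ L := by
  classical
  intro X hX
  let s : Finset ℝ := Finset.univ.image fun p : Fin n × Fin n => h p.1 - h p.2
  have h1 : had h φ X = had h (fun v => (Lagrange.interpolate s id φ).eval v) X := by
    ext a b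
    rw [had_apply, had_apply]
    have h2 : h a - h b ∈ s := Finset.mem_image.2 ⟨(a, b), Finset.mem_univ _, rfl⟩
    have h3 := Lagrange.eval_interpolate_at_node (s := s) (v := id) φ (Set.injOn_id _) h2
    rw [id] at h3
    rw [h3]
  rw [h1]
  exact had_poly hbr _ X hX

theorem had_mem (hg : LA L) (hh : diagonal h ∈ L) (φ : ℝ → ℝ) : ∀ X ∈ L, had h φ X ∈ L :=
  had_mem' (fun X hX => hg.br _ hh _ hX) φ

end had

/-- the diagonal part -/
def dia (L : Submodule ℝ (Mat n)) : Submodule ℝ (Fin n → ℝ) :=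
  L.comap (Matrix.diagonalLinearMap (Fin n) ℝ ℝ)

theorem mem_dia {L : Submodule ℝ (Mat n)} {x : Fin n → ℝ} : x ∈ dia L ↔ diagonal x ∈ L := Iff.rfl

/-- the functional `x ↦ x a - x b` -/
def fn (L : Submodule ℝ (Mat n)) (a b : Fin n) : Module.Dual ℝ (dia L) :=
  ((LinearMap.proj a : (Fin n → ℝ) →ₗ[ℝ] ℝ) - LinearMap.proj b).comp (dia L).subtype

theorem fn_apply (L : Submodule ℝ (Mat n)) (a b : Fin n) (x : dia L) :
    fn L a b x = x.1 a - x.1 b := rfl

/-- square of the Frobenius norm -/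
def nrm (X : Mat n) : ℝ := (Xᵀ * X).trace

theorem nrm_eq (X : Mat n) : nrm X = ∑ b, ∑ a, X a b ^ 2 := by
  unfold nrm
  rw [Matrix.trace]
  refine Finset.sum_congr rfl fun b _ => ?_
  rw [Matrix.diag_apply, Matrix.mul_apply]
  refine Finset.sum_congr rfl fun a _ => ?_
  rw [Matrix.transpose_apply, sq]

theorem nrm_nonneg (X : Mat n) : 0 ≤ nrm X := by
  rw [nrm_eq]
  positivity

theorem nrm_pos {X : Mat n} (hX : X ≠ 0) : 0 < nrm X := by
  refine lt_of_le_of_ne (nrm_nonneg X) fun h0 => hX ?_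
  rw [nrm_eq] at h0
  have h1 := (Finset.sum_eq_zero_iff_of_nonneg (fun b _ => by positivity)).1 h0.symm
  ext a b
  have h2 := (Finset.sum_eq_zero_iff_of_nonneg (fun a _ => by positivity)).1 (h1 b (Finset.mem_univ _))
    a (Finset.mem_univ _)
  simpa using h2

/-- `X` is a root vector for `l`. -/
structure RV (L : Submodule ℝ (Mat n)) (l : Module.Dual ℝ (dia L)) (X : Mat n) : Prop where
  mem : X ∈ L
  ne : X ≠ 0
  ad : ∀ x : dia L, diagonal x.1 * X - X * diagonal x.1 = l x • X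

section rv

variable {L : Submodule ℝ (Mat n)} {l m : Module.Dual ℝ (dia L)} {X Y : Mat n}

theorem RV.supp (hX : RV L l X) {a b : Fin n} (hab : X a b ≠ 0) (x : dia L) :
    x.1 a - x.1 b = l x := by
  have h1 := congrFun (congrFun (hX.ad x) a) b
  rw [Matrix.sub_apply, Matrix.diagonal_mul, Matrix.mul_diagonal, Matrix.smul_apply,
    smul_eq_mul] at h1
  have h2 : (x.1 a - x.1 b - l x) * X a b = 0 := by linarith
  exact sub_eq_zero.1 ((mul_eq_zero.1 h2).resolve_right hab)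

theorem RV.ad_tr (hX : RV L l X) (x : dia L) :
    Xᵀ * diagonal x.1 - diagonal x.1 * Xᵀ = l x • Xᵀ := by
  have h1 := congrArg Matrix.transpose (hX.ad x)
  rwa [Matrix.transpose_sub, Matrix.transpose_mul, Matrix.transpose_mul,
    Matrix.diagonal_transpose, Matrix.transpose_smul] at h1

/-- the diagonal part of a bracket -/
theorem RV.comm_diag (hX : RV L l X) (x : dia L) :
    (X * Xᵀ - Xᵀ * X) * diagonal x.1 = diagonal x.1 * (X * Xᵀ - Xᵀ * X) := by
  have h1 : diagonal x.1 * X = X * diagonal x.1 + l x • X := by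
    rw [← hX.ad x]; abel
  have h2 : Xᵀ * diagonal x.1 = diagonal x.1 * Xᵀ + l x • Xᵀ := by
    rw [← hX.ad_tr x]; abel
  have h3 : X * Xᵀ * diagonal x.1 = diagonal x.1 * (X * Xᵀ) := by
    rw [mul_assoc, h2, mul_add, ← mul_assoc, ← mul_assoc, h1, add_mul, Matrix.mul_smul,
      Matrix.smul_mul]
  have h4 : Xᵀ * X * diagonal x.1 = diagonal x.1 * (Xᵀ * X) := by
    have h5 : X * diagonal x.1 = diagonal x.1 * X - l x • X := by
      rw [← hX.ad x]; abel
    have h6 : diagonal x.1 * Xᵀ = Xᵀ * diagonal x.1 - l x • Xᵀ := by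
      rw [← hX.ad_tr x]; abel
    rw [mul_assoc, h5, mul_sub, ← mul_assoc, ← mul_assoc, h6, sub_mul, Matrix.mul_smul,
      Matrix.smul_mul]
  rw [sub_mul, mul_sub, h3, h4]

/-- `[X, Xᵀ]` is the Riesz vector of `l`, up to the norm of `X`. -/
theorem RV.riesz (hg : LA L) (hh : ∃ h : dia L, ∀ X ∈ L, Xᵀ = X →
      X * diagonal h.1 = diagonal h.1 * X → ∃ x : Fin n → ℝ, X = diagonal x)
    (hX : RV L l X) :
    ∃ y : dia L, X * Xᵀ - Xᵀ * X = diagonal y.1 ∧ ∀ x : dia L, ∑ a, y.1 a * x.1 a = l x * nrm X := by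
  obtain ⟨h, hh⟩ := hh
  have h1 : X * Xᵀ - Xᵀ * X ∈ L := hg.br _ hX.mem _ (hg.tr _ hX.mem)
  obtain ⟨y, hy⟩ := hh _ h1 (by
    rw [Matrix.transpose_sub, Matrix.transpose_mul, Matrix.transpose_mul,
      Matrix.transpose_transpose]) (hX.comm_diag h)
  refine ⟨⟨y, mem_dia.2 (hy ▸ h1)⟩, hy, fun x => ?_⟩
  have h2 : ∑ a, y a * x.1 a = (diagonal y * diagonal x.1).trace := by
    rw [Matrix.diagonal_mul_diagonal, Matrix.trace_diagonal]
  change ∑ a, y a * x.1 a = _
  rw [h2, ← hy, sub_mul, Matrix.trace_sub, Matrix.trace_mul_comm (Xᵀ * X), mul_assoc X,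
    Matrix.trace_mul_comm X, ← mul_assoc (diagonal x.1)]
  have h3 : Xᵀ * diagonal x.1 * X = Xᵀ * (X * diagonal x.1) + l x • (Xᵀ * X) := by
    rw [← Matrix.mul_smul, ← mul_add, mul_assoc, ← hX.ad x]
    congr 1
    abel
  rw [h3, Matrix.trace_add, Matrix.trace_smul, smul_eq_mul]
  have h4 : (diagonal x.1 * Xᵀ * X).trace = (Xᵀ * (X * diagonal x.1)).trace := by
    rw [mul_assoc, Matrix.trace_mul_comm, mul_assoc]
  rw [h4, add_sub_cancel_left]
  rfl

/-- the second trace identity -/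
theorem RV.obt (hX : RV L l X) {y : dia L} (hy : Y * Yᵀ - Yᵀ * Y = diagonal y.1)
    (hz : Yᵀ * X = X * Yᵀ) : nrm (Y * X - X * Y) = -(l y * nrm X) := by
  unfold nrm
  rw [Matrix.transpose_sub, Matrix.transpose_mul, Matrix.transpose_mul, sub_mul,
    Matrix.trace_sub]
  have h1 : (Yᵀ * Xᵀ * (Y * X - X * Y)).trace = (Xᵀ * ((Y * X - X * Y) * Yᵀ)).trace := by
    rw [mul_assoc, Matrix.trace_mul_comm, mul_assoc]
  rw [h1, mul_assoc, ← Matrix.trace_sub, ← mul_sub]
  have h2 : Yᵀ * (Y * X - X * Y) - (Y * X - X * Y) * Yᵀ = -(l y • X) := by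
    rw [← hX.ad y, ← hy]
    have e1 : Yᵀ * (Y * X - X * Y) = Yᵀ * Y * X - X * Yᵀ * Y := by
      rw [mul_sub, ← mul_assoc, ← mul_assoc, hz]
    have e2 : (Y * X - X * Y) * Yᵀ = Y * Yᵀ * X - X * (Y * Yᵀ) := by
      rw [sub_mul, mul_assoc, ← hz, ← mul_assoc, mul_assoc X]
    rw [e1, e2]
    noncomm_ring
  rw [h2, mul_neg, Matrix.mul_smul, Matrix.trace_neg, Matrix.trace_smul, smul_eq_mul]

/-- the bracket with the transpose -/
theorem RV.sub_ad (hX : RV L l X) (hY : RV L m Y) (x : dia L) :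
    diagonal x.1 * (Yᵀ * X - X * Yᵀ) - (Yᵀ * X - X * Yᵀ) * diagonal x.1 =
      (l x - m x) • (Yᵀ * X - X * Yᵀ) := by
  have h1 : diagonal x.1 * X = X * diagonal x.1 + l x • X := by
    rw [← hX.ad x]; abel
  have h2 : diagonal x.1 * Yᵀ = Yᵀ * diagonal x.1 - m x • Yᵀ := by
    rw [← hY.ad_tr x]; abel
  have e1 : diagonal x.1 * (Yᵀ * X) = Yᵀ * (X * diagonal x.1) + (l x - m x) • (Yᵀ * X) := by
    rw [← mul_assoc, h2, sub_mul, mul_assoc, h1, mul_add, Matrix.mul_smul, Matrix.smul_mul,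
      sub_smul]
    abel
  have e2 : diagonal x.1 * (X * Yᵀ) = X * (Yᵀ * diagonal x.1) + (l x - m x) • (X * Yᵀ) := by
    rw [← mul_assoc, h1, add_mul, mul_assoc, h2, mul_sub, Matrix.mul_smul, Matrix.smul_mul,
      sub_smul]
    abel
  rw [mul_sub, sub_mul, e1, e2, smul_sub, mul_assoc, mul_assoc]
  abel

end rv

end Vale.Agent.P092.H720.Re
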