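import Vale.Agent.P092.H720.Re.Had

/-!
P092, project RE (helper720), block [RE-R], part 2: positive roots, indecomposable positive roots
(obtuse, generating), the dual basis.
-/

set_option linter.all false

open Matrix

namespace Vale.Agent.P092.H720.Re

open Vale.Agent.P092.H793.Re

variable {n : ℕ}

/-- the hypotheses: `h` is generic -/
structure GD (L : Submodule ℝ (Mat n)) (h : dia L) : Prop where
  cent : ∀ X ∈ L, Xᵀ = X → X * diagonal h.1 = diagonal h.1 * X → ∃ x : Fin n → ℝ, X = diagonal x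
  gen : ∀ a b c d, h.1 a - h.1 b = h.1 c - h.1 d → ∀ x : dia L, x.1 a - x.1 b = x.1 c - x.1 d

/-- positive roots -/
def Phi (L : Submodule ℝ (Mat n)) (h : dia L) : Set (Module.Dual ℝ (dia L)) :=
  {l | ∃ a b, h.1 b < h.1 a ∧ (∃ X ∈ L, X a b ≠ 0) ∧ l = fn L a b}

/-- indecomposable positive roots -/
def Sim (L : Submodule ℝ (Mat n)) (h : dia L) : Set (Module.Dual ℝ (dia L)) :=
  {l | l ∈ Phi L h ∧ ∀ m ∈ Phi L h, ∀ k ∈ Phi L h, l ≠ m + k}

section

variable {L : Submodule ℝ (Mat n)} {h : dia L}

theorem finite_Phi : (Phi L h).Finite := by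
  refine (Set.finite_range fun p : Fin n × Fin n => fn L p.1 p.2).subset ?_
  rintro l ⟨a, b, _, _, rfl⟩
  exact ⟨(a, b), rfl⟩

theorem Phi_pos {l : Module.Dual ℝ (dia L)} (hl : l ∈ Phi L h) : 0 < l h := by
  obtain ⟨a, b, h1, _, rfl⟩ := hl
  rw [fn_apply]
  linarith

/-- root vectors exist -/
theorem exists_RV (hg : LA L) (hG : GD L h) {a b : Fin n} {X : Mat n} (hX : X ∈ L)
    (hab : X a b ≠ 0) : ∃ Y, RV L (fn L a b) Y := by
  classical
  refine ⟨had h.1 (fun v => if v = h.1 a - h.1 b then 1 else 0) X,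
    had_mem hg h.2 _ X hX, ?_, fun x => ?_⟩
  · intro h0
    have h1 := congrFun (congrFun h0 a) b
    rw [had_apply, if_pos rfl, one_mul] at h1
    exact hab h1
  · ext c d
    rw [Matrix.sub_apply, Matrix.diagonal_mul, Matrix.mul_diagonal, Matrix.smul_apply, had_apply,
      smul_eq_mul, fn_apply]
    by_cases hv : h.1 c - h.1 d = h.1 a - h.1 b
    · rw [if_pos hv, one_mul, ← hG.gen c d a b hv x]
      ring
    · rw [if_neg hv]
      ring

/-- the difference of two indecomposable roots is not a root: obtuse angles -/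
theorem obtuse (hg : LA L) (hG : GD L h) {l m : Module.Dual ℝ (dia L)} (hl : l ∈ Sim L h)
    (hm : m ∈ Sim L h) (hlm : l ≠ m) {X Y : Mat n} (hX : RV L l X) (hY : RV L m Y) {y : dia L}
    (hy : Y * Yᵀ - Yᵀ * Y = diagonal y.1) : l y ≤ 0 := by
  by_cases hz : Yᵀ * X = X * Yᵀ
  · have h1 := hX.obt hy hz
    have h2 := nrm_nonneg (Y * X - X * Y)
    have h3 := nrm_pos hX.ne
    by_contra h4
    push Not at h4
    have := mul_pos h4 h3
    linarith
  · exfalso
    have hZ : Yᵀ * X - X * Yᵀ ∈ L := hg.br _ (hg.tr _ hY.mem) _ hX.mem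
    obtain ⟨a, b, hab⟩ : ∃ a b, (Yᵀ * X - X * Yᵀ) a b ≠ 0 := by
      by_contra hcon
      push Not at hcon
      exact hz (sub_eq_zero.1 (by ext a b; exact hcon a b))
    have h1 : ∀ x : dia L, x.1 a - x.1 b = l x - m x := by
      intro x
      have h2 := congrFun (congrFun (hX.sub_ad hY x) a) b
      rw [Matrix.sub_apply, Matrix.diagonal_mul, Matrix.mul_diagonal, Matrix.smul_apply,
        smul_eq_mul] at h2
      have h3 : (x.1 a - x.1 b - (l x - m x)) * (Yᵀ * X - X * Yᵀ) a b = 0 := by linarith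
      exact sub_eq_zero.1 ((mul_eq_zero.1 h3).resolve_right hab)
    rcases lt_trichotomy (h.1 a) (h.1 b) with h2 | h2 | h2
    · -- `m = l + fn b a`
      refine hm.2 l hl.1 (fn L b a) ⟨b, a, h2, ⟨_, hg.tr _ hZ, ?_⟩, rfl⟩ ?_
      · rwa [Matrix.transpose_apply]
      · ext x
        have h3 := h1 x
        rw [LinearMap.add_apply, fn_apply]
        linarith
    · refine hlm ?_
      ext x
      have h3 := h1 x
      have h4 := hG.gen a b a a (by rw [h2]) x
      linarith
    · refine hl.2 m hm.1 (fn L a b) ⟨a, b, h2, ⟨_, hZ, hab⟩, rfl⟩ ?_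
      ext x
      have h3 := h1 x
      rw [LinearMap.add_apply, fn_apply]
      linarith

/-- the indecomposable positive roots generate -/
theorem mem_closure_Sim {l : Module.Dual ℝ (dia L)} (hl : l ∈ Phi L h) :
    l ∈ AddSubmonoid.closure (Sim L h) := by
  classical
  have key : ∀ N : ℕ, ∀ l ∈ Phi L h,
      (finite_Phi (L := L) (h := h)).toFinset.card.succ ≤ N + ((finite_Phi (L := L) (h := h)).toFinset.filter
        fun m => l h ≤ m h).card → l ∈ AddSubmonoid.closure (Sim L h) := by
    intro N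
    induction N with
    | zero =>
      intro l hl hN
      exfalso
      have := Finset.card_filter_le (finite_Phi (L := L) (h := h)).toFinset fun m => l h ≤ m h
      omega
    | succ N ih =>
      intro l hl hN
      by_cases hs : l ∈ Sim L h
      · exact AddSubmonoid.subset_closure hs
      · have h1 : ∃ m ∈ Phi L h, ∃ k ∈ Phi L h, l = m + k := by
          by_contra hcon
          push Not at hcon
          exact hs ⟨hl, fun m hm k hk => hcon m hm k hk⟩
        obtain ⟨m, hm, k, hk, rfl⟩ := h1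
        have hm0 := Phi_pos hm
        have hk0 := Phi_pos hk
        have lem : ∀ m' ∈ Phi L h, m' h < (m + k) h →
            m' ∈ AddSubmonoid.closure (Sim L h) := by
          intro m' hm' hlt
          refine ih m' hm' ?_
          have h2 : ((finite_Phi (L := L) (h := h)).toFinset.filter fun q => (m + k) h ≤ q h) ⊂
              ((finite_Phi (L := L) (h := h)).toFinset.filter fun q => m' h ≤ q h) := by
            rw [Finset.ssubset_iff_of_subset]
            · refine ⟨m', ?_, ?_⟩
              · simp [hm']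
              · simp only [Finset.mem_filter, not_and, not_le]
                intro _
                exact hlt
            · intro q hq
              rw [Finset.mem_filter] at hq ⊢
              exact ⟨hq.1, hlt.le.trans hq.2⟩
          have h3 := Finset.card_lt_card h2
          omega
        refine add_mem (lem m hm ?_) (lem k hk ?_)
        · rw [LinearMap.add_apply]; linarith
        · rw [LinearMap.add_apply]; linarith
  exact key _ l hl (Nat.le_add_right _ _)

end

/-- Everything in `Sr`, with `Lie ρ X` replaced by `X ∈ L`. -/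
structure SrA (L : Submodule ℝ (Mat n)) (h : Fin n → ℝ) {r : ℕ} (p q : Fin r → Fin n)
    (w : Fin r → Fin n → ℝ) (E : Fin r → Mat n) : Prop where
  pos : 0 < r
  hpq : ∀ j, h (q j) < h (p j)
  wl : ∀ j, diagonal (w j) ∈ L
  dual : ∀ i j, w j (p i) - w j (q i) = if i = j then 1 else 0
  span : ∀ x : Fin n → ℝ, diagonal x ∈ L → x = ∑ j, (x (p j) - x (q j)) • w j
  root : ∀ X ∈ L, ∀ a b, X a b ≠ 0 → h b < h a → ∃ m : Fin r → ℕ,
    ∀ x : Fin n → ℝ, diagonal x ∈ L → x a - x b = ∑ j, (m j : ℝ) * (x (p j) - x (q j))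
  El : ∀ j, E j ∈ L
  En : ∀ j, E j ≠ 0
  Ew : ∀ j (x : Fin n → ℝ), diagonal x ∈ L →
    diagonal x * E j - E j * diagonal x = (x (p j) - x (q j)) • E j
  Eh : ∀ j, ∃ y : Fin n → ℝ, E j * (E j)ᵀ - (E j)ᵀ * E j = diagonal y ∧ y (p j) - y (q j) = 2

/-- the standard bilinear form -/
def dotB (L : Submodule ℝ (Mat n)) : LinearMap.BilinForm ℝ (dia L) :=
  LinearMap.mk₂ ℝ (fun x y => ∑ a, x.1 a * y.1 a)
    (fun x x' y => by
      rw [← Finset.sum_add_distrib]
      refine Finset.sum_congr rfl fun a _ => ?_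
      change (x.1 a + x'.1 a) * y.1 a = _
      ring)
    (fun c x y => by
      rw [smul_eq_mul, Finset.mul_sum]
      refine Finset.sum_congr rfl fun a _ => ?_
      change (c * x.1 a) * y.1 a = _
      ring)
    (fun x y y' => by
      rw [← Finset.sum_add_distrib]
      refine Finset.sum_congr rfl fun a _ => ?_
      change x.1 a * (y.1 a + y'.1 a) = _
      ring)
    (fun c x y => by
      rw [smul_eq_mul, Finset.mul_sum]
      refine Finset.sum_congr rfl fun a _ => ?_
      change x.1 a * (c * y.1 a) = _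
      ring)

theorem dotB_apply (L : Submodule ℝ (Mat n)) (x y : dia L) :
    dotB L x y = ∑ a, x.1 a * y.1 a := rfl

theorem dotB_posDef (L : Submodule ℝ (Mat n)) : (dotB L).toQuadraticMap.PosDef := by
  intro x hx
  change 0 < dotB L x x
  rw [dotB_apply]
  have h1 : 0 ≤ ∑ a, x.1 a * x.1 a := Finset.sum_nonneg fun a _ => mul_self_nonneg _
  refine lt_of_le_of_ne h1 fun h0 => hx ?_
  have h2 := (Finset.sum_eq_zero_iff_of_nonneg fun a _ => mul_self_nonneg _).1 h0.symm
  refine Subtype.ext (funext fun a => ?_)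
  exact mul_self_eq_zero.1 (h2 a (Finset.mem_univ _))

/-- **Simple roots exist.** -/
theorem exists_srA {L : Submodule ℝ (Mat n)} {h : dia L} (hg : LA L) (hG : GD L h)
    (hc : ∀ x : dia L, (∀ X ∈ L, diagonal x.1 * X = X * diagonal x.1) → x = 0) (h0 : h ≠ 0) :
    ∃ (r : ℕ) (p q : Fin r → Fin n) (w : Fin r → Fin n → ℝ) (E : Fin r → Mat n),
      SrA L h.1 p q w E := by
  classical
  have hf : (Sim L h).Finite := finite_Phi.subset fun l hl => hl.1
  haveI : Finite (Sim L h) := hf
  obtain ⟨r, ⟨e⟩⟩ := Finite.exists_equiv_fin (Sim L h)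
  -- the simple roots
  have hα : ∀ j, (e.symm j).1 ∈ Sim L h := fun j => (e.symm j).2
  have hinj : ∀ i j, (e.symm i).1 = (e.symm j).1 → i = j := fun i j hij =>
    e.symm.injective (Subtype.ext hij)
  have hpq : ∀ j, ∃ p q : Fin n, h.1 q < h.1 p ∧ (∃ X ∈ L, X p q ≠ 0) ∧ (e.symm j).1 = fn L p q :=
    fun j => (hα j).1
  choose p q hlt hX hfn using hpq
  have hval : ∀ j (x : dia L), (e.symm j).1 x = x.1 (p j) - x.1 (q j) := fun j x => by
    rw [hfn j, fn_apply]
  have hRV : ∀ j, ∃ Y, RV L (e.symm j).1 Y := fun j => by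
    obtain ⟨X, hX1, hX2⟩ := hX j
    rw [hfn j]
    exact exists_RV hg hG hX1 hX2
  choose Y hY using hRV
  have hry : ∀ j, ∃ y : dia L, Y j * (Y j)ᵀ - (Y j)ᵀ * Y j = diagonal y.1 ∧
      ∀ x : dia L, ∑ a, y.1 a * x.1 a = (e.symm j).1 x * nrm (Y j) := fun j =>
    (hY j).riesz hg ⟨h, hG.cent⟩
  choose y hy1 hy2 using hry
  have hN : ∀ j, 0 < nrm (Y j) := fun j => nrm_pos (hY j).ne
  -- independence of the `y j`
  have hli : LinearIndependent ℝ y := by
    refine LinearMap.BilinForm.linearIndependent_of_pairwise_le_zero (dotB L) (dotB_posDef L)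
      ((dotB L) h) y (fun i => ?_) (fun i j hij => ?_)
    · rw [dotB_apply]
      have h1 : ∑ a, h.1 a * (y i).1 a = ∑ a, (y i).1 a * h.1 a :=
        Finset.sum_congr rfl fun a _ => mul_comm _ _
      rw [h1, hy2]
      exact mul_pos (Phi_pos (hα i).1) (hN i)
    · change dotB L (y i) (y j) ≤ 0
      rw [dotB_apply, hy2]
      have h1 := obtuse hg hG (hα i) (hα j) (fun h2 => hij (hinj i j h2)) (hY i) (hY j) (hy1 j)
      exact mul_nonpos_of_nonpos_of_nonneg h1 (hN i).le
  -- evaluation
  let ev : dia L →ₗ[ℝ] (Fin r → ℝ) := LinearMap.pi fun j => (e.symm j).1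
  have hev : ∀ x j, ev x j = x.1 (p j) - x.1 (q j) := fun x j => hval j x
  have hcl : ∀ l ∈ AddSubmonoid.closure (Sim L h), ∃ m : Fin r → ℕ,
      ∀ x : dia L, l x = ∑ j, (m j : ℝ) * (e.symm j).1 x := by
    intro l h1
    induction h1 using AddSubmonoid.closure_induction with
    | mem x hx =>
      refine ⟨Pi.single (e ⟨x, hx⟩) 1, fun z => ?_⟩
      rw [Finset.sum_eq_single (e ⟨x, hx⟩)]
      · simp
      · intro j _ hj
        rw [Pi.single_eq_of_ne hj]
        simp
      · intro hh
        exact absurd (Finset.mem_univ _) hh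
    | zero => exact ⟨0, fun z => by simp⟩
    | add x y' _ _ hx hy' =>
      obtain ⟨m, hm⟩ := hx
      obtain ⟨m', hm'⟩ := hy'
      refine ⟨m + m', fun z => ?_⟩
      rw [LinearMap.add_apply, hm, hm', ← Finset.sum_add_distrib]
      refine Finset.sum_congr rfl fun j _ => ?_
      rw [Pi.add_apply]
      push_cast
      ring
  have hcomb : ∀ l ∈ Phi L h, ∃ m : Fin r → ℕ, ∀ x : dia L, l x = ∑ j, (m j : ℝ) * (e.symm j).1 x :=
    fun l hl => hcl l (mem_closure_Sim hl)
  have hker : ∀ x : dia L, ev x = 0 → x = 0 := by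
    intro x hx
    have hx0 : ∀ j, (e.symm j).1 x = 0 := fun j => congrFun hx j
    have hPhi : ∀ l ∈ Phi L h, l x = 0 := by
      intro l hl
      obtain ⟨m, hm⟩ := hcomb l hl
      rw [hm]
      exact Finset.sum_eq_zero fun j _ => by rw [hx0, mul_zero]
    refine hc x fun X hX => ?_
    ext a b
    rw [Matrix.diagonal_mul, Matrix.mul_diagonal]
    by_cases hab : X a b = 0
    · rw [hab]; ring
    · have h1 : x.1 a = x.1 b := by
        rcases lt_trichotomy (h.1 a) (h.1 b) with h2 | h2 | h2
        · have h3 := hPhi (fn L b a) ⟨b, a, h2, ⟨_, hg.tr _ hX, hab⟩, rfl⟩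
          rw [fn_apply] at h3
          linarith
        · have h4 := hG.gen a b a a (by rw [h2]) x
          linarith
        · have h3 := hPhi (fn L a b) ⟨a, b, h2, ⟨_, hX, hab⟩, rfl⟩
          rw [fn_apply] at h3
          linarith
      rw [h1]; ring
  have hinj' : Function.Injective ev := by
    rw [← LinearMap.ker_eq_bot, LinearMap.ker_eq_bot']
    exact hker
  have hfr : Module.finrank ℝ (dia L) = Module.finrank ℝ (Fin r → ℝ) := by
    refine le_antisymm (LinearMap.finrank_le_finrank_of_injective hinj') ?_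
    have h1 := hli.fintype_card_le_finrank
    rwa [Module.finrank_fin_fun, ← Fintype.card_fin r]
  have hsurj : Function.Surjective ev :=
    (LinearMap.injective_iff_surjective_of_finrank_eq_finrank hfr).1 hinj'
  choose w hw using fun j : Fin r => hsurj (Pi.single j 1)
  have hw' : ∀ i j, (w j).1 (p i) - (w j).1 (q i) = if i = j then 1 else 0 := by
    intro i j
    rw [← hev, hw, Pi.single_apply]
  have hspan : ∀ x : dia L, x = ∑ j, (x.1 (p j) - x.1 (q j)) • w j := by
    intro x
    refine hinj' ?_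
    rw [map_sum]
    funext i
    rw [Finset.sum_apply]
    rw [Finset.sum_eq_single i]
    · rw [map_smul, hw, Pi.smul_apply, Pi.single_eq_same, hev, smul_eq_mul, mul_one]
    · intro j _ hj
      rw [map_smul, hw, Pi.smul_apply, Pi.single_eq_of_ne hj.symm, smul_zero]
    · intro hh
      exact absurd (Finset.mem_univ _) hh
  refine ⟨r, p, q, fun j => (w j).1, fun j => Real.sqrt (2 / ((e.symm j).1 (y j))) • Y j, ?_⟩
  have hyp : ∀ j, 0 < (e.symm j).1 (y j) := by
    intro j
    have h1 := hy2 j (y j)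
    have h2 : 0 < ∑ a, (y j).1 a * (y j).1 a := by
      have h3 := dotB_posDef L (y j) (hli.ne_zero j)
      exact h3
    rw [h1] at h2
    exact (mul_pos_iff_of_pos_right (hN j)).1 h2
  exact
  { pos := by
      rcases Nat.eq_zero_or_pos r with hr | hr
      · exfalso
        subst hr
        refine h0 (hinj' ?_)
        funext j
        exact j.elim0
      · exact hr
    hpq := hlt
    wl := fun j => (w j).2
    dual := hw'
    span := fun x hx => by
      have h1 := congrArg Subtype.val (hspan ⟨x, hx⟩)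
      rw [Submodule.coe_sum] at h1
      exact h1
    root := fun X hX a b hab hlt' => by
      obtain ⟨m, hm⟩ := hcomb (fn L a b) ⟨a, b, hlt', ⟨X, hX, hab⟩, rfl⟩
      refine ⟨m, fun x hx => ?_⟩
      have h1 := hm ⟨x, hx⟩
      rw [fn_apply] at h1
      rw [h1]
      exact Finset.sum_congr rfl fun j _ => by rw [hval]
    El := fun j => L.smul_mem _ (hY j).mem
    En := fun j => by
      refine smul_ne_zero ?_ (hY j).ne
      exact (Real.sqrt_pos.2 (div_pos two_pos (hyp j))).ne'
    Ew := fun j x hx => by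
      have h1 := (hY j).ad ⟨x, hx⟩
      rw [hval] at h1
      rw [Matrix.mul_smul, Matrix.smul_mul, ← smul_sub, smul_comm]
      exact congrArg _ h1
    Eh := fun j => by
      refine ⟨(2 / ((e.symm j).1 (y j))) • (y j).1, ?_, ?_⟩
      · have h1 := hy1 j
        rw [Matrix.transpose_smul, Matrix.smul_mul, Matrix.mul_smul, Matrix.smul_mul,
          Matrix.mul_smul, smul_smul, Real.mul_self_sqrt (div_nonneg two_pos.le (hyp j).le), smul_smul,
          Real.mul_self_sqrt (div_nonneg two_pos.le (hyp j).le), ← smul_sub, h1,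
          ← Matrix.diagonal_smul]
      · have h1 := hval j (y j)
        rw [Pi.smul_apply, Pi.smul_apply, smul_eq_mul, smul_eq_mul, ← mul_sub, ← h1]
        exact div_mul_cancel₀ _ (hyp j).ne' }

end Vale.Agent.P092.H720.Re
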